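import Vale.Agent.P015.Final

namespace Vale.Agent.Results.P015.Moat

open Vale.Agent.P015

theorem result :
    (∀ (D : ℝ) (c : (SimpleGraph.fromRel fun z w : {z : GaussianInt // Irreducible z} =>
        dist (GaussianInt.toComplex z.1) (GaussianInt.toComplex w.1) ≤ D).ConnectedComponent),
      c.supp.Finite) ∧
    (∀ D : ℝ, ¬ ∃ z : ℕ → GaussianInt, Function.Injective z ∧ (∀ n, Irreducible (z n)) ∧
      ∀ n, dist (GaussianInt.toComplex (z (n + 1))) (GaussianInt.toComplex (z n)) ≤ D) := by
  refine ⟨fun D c => ?_, fun D ⟨z, h1, h2, h3⟩ => no_walk D z h1 h2 h3⟩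
  by_contra hinf
  obtain ⟨v, rfl⟩ := c.exists_rep
  obtain ⟨f, h1, h2⟩ := exists_ray (fun z w : {z : GaussianInt // Irreducible z} =>
    dist (GaussianInt.toComplex w.1) (GaussianInt.toComplex z.1) ≤ D)
    (fun z => (finite_near D z.1).preimage Subtype.val_injective.injOn) v (by
      refine Set.Infinite.mono (fun u hu => ?_) hinf
      have h := (SimpleGraph.reachable_iff_reflTransGen _ _).1
        (SimpleGraph.ConnectedComponent.exact hu).symm
      refine Relation.ReflTransGen.mono (fun a b hab => ?_) _ _ h
      rcases hab.2 with h | h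
      · rwa [dist_comm]
      · exact h)
  exact no_walk D (fun n => (f n).1) (Subtype.val_injective.comp h1) (fun n => (f n).2) h2

end Vale.Agent.Results.P015.Moat
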